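import Vale.Agent.P158.Final

open MeasureTheory ProbabilityTheory
open scoped NNReal

/-- Planar first-passage percolation with i.i.d. edge weights of an atomless law on `[0, ∞)` has
almost surely no bigeodesic. -/
theorem Vale.Agent.Results.P158.NoBigeodesics.result
    {Ω : Type} [MeasurableSpace Ω] (P : Measure Ω) [IsProbabilityMeasure P]
    (G : Measure ℝ≥0) [IsProbabilityMeasure G] (hG : ∀ x : ℝ≥0, G {x} = 0)
    (t : Vale.Agent.P158.grid.edgeSet → Ω → ℝ≥0) (hmeas : ∀ e, Measurable (t e))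
    (hind : iIndepFun t P) (hlaw : ∀ e, P.map (t e) = G) :
    ∀ᵐ ω ∂P, ¬ ∃ v : ℤ → ℤ × ℤ, Vale.Agent.P158.IsBigeodesic (fun e => t e ω) v := by
  have : NullSingletonClass G := ⟨hG⟩
  exact Vale.Agent.P158.main P t hmeas hind hlaw
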